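import Vale.Agent.P281.H64.TK.SpecN
import Vale.Agent.P281.H64.Gen.Core
import Vale.Agent.P281.H713.DefsG

/-!
# P281, project T-U (helper64): fibres with Gauss map of rank `r`, statements of the blocks (FROZEN)

Relative forms which are only bounded on tame slices (for instance the slices `Q` of the fibres with
`|dQ ξ|²_w ≥ |ξ|² / K` for a Kähler metric `w`).
-/

open Set Filter Metric MeasureTheory Vale.Agent.P281 Vale.Agent.P281.H713 Vale.Agent.P272.K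
open Vale.Agent.P281.MF Vale.Agent.P281.ISO Vale.Agent.P281.ELL Vale.Agent.P281.H713.TZ
open Vale.Agent.P281.H64.Thin (IsThinSet)
open Vale.Agent.P281.H64.Gen (IsSmallSet NoExc)

open scoped Topology ContDiff Manifold ComplexConjugate ComplexOrder ENNReal NNReal

noncomputable section

namespace Vale.Agent.P281.H64.TU

/-- A predicate on the slices: `T K Q v₀ r`, for `Q` on `ball v₀ r`, with the constant `K`. -/
abbrev Tame (E₀ X : Type) : Type := ℝ → (E₀ → X) → E₀ → ℝ → Prop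

section RelFormT

variable {E E' E₀ : Type} [NormedAddCommGroup E] [NormedSpace ℂ E] [FiniteDimensional ℂ E]
  [NormedAddCommGroup E'] [NormedSpace ℂ E'] [FiniteDimensional ℂ E']
  [NormedAddCommGroup E₀] [NormedSpace ℂ E₀] [FiniteDimensional ℂ E₀]
variable {X Y : Type} [TopologicalSpace X] [ChartedSpace E X] [IsManifold 𝓘(ℂ, E) ω X]
  [TopologicalSpace Y] [ChartedSpace E' Y] [IsManifold 𝓘(ℂ, E') ω Y]

/-- `H713.RelForm`, with bounds on the slices in `T`. -/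
structure RelFormT (T : Tame E₀ X) (f : X → Y) (S : Set Y) (e₀ : E ≃L[ℂ] (E' × E₀)) (N : ℕ)
    (𝒜 : Set (Set X)) (κ₀ : Set X → ℕ) (Θ : X → ℂ) : Prop where
  hol : ∀ (x₀ x : X) (y₀ : Y), f x ∉ S → x ∈ (chartAt E x₀).source →
      f x ∈ (chartAt E' y₀).source → ∀ (T : Finset (Set X)) (e : Set X → X → ℂ),
      (∀ D, κ₀ D ≠ 0 → D ∈ T) → (∀ D ∈ T, IsLocalEq E D (e D) x) →
      ∃ H : X → ℂ, HolV E H x ∧ ∀ᶠ z in 𝓝 x, (∀ D ∈ 𝒜, z ∉ D) → ∏ D ∈ T, e D z ^ κ₀ D ≠ 0 →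
        jac E' (chartAt E' y₀) (f z) ^ N * Θ z * ∏ D ∈ T, e D z ^ κ₀ D =
          H z * jac E (chartAt E x₀) z ^ N
  bound : ∀ r K : ℝ, 0 < r → 0 < K → ∃ C : ℝ, ∀ (v₀ : E₀) (Q : E₀ → X),
      (∀ v ∈ ball v₀ r, ContMDiffAt 𝓘(ℂ, E₀) 𝓘(ℂ, E) ω Q v) → InjOn Q (ball v₀ r) →
      (∀ v ∈ ball v₀ r, f (Q v) = f (Q v₀)) → f (Q v₀) ∉ S →
      (∀ v ∈ ball v₀ r, ∀ D ∈ 𝒜, Q v ∉ D) → T K Q v₀ r → ∀ P : E →L[ℂ] E₀,
      P.comp (mfderiv 𝓘(ℂ, E₀) 𝓘(ℂ, E) Q v₀ : E₀ →L[ℂ] E) = ContinuousLinearMap.id ℂ E₀ →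
      ‖Θ (Q v₀)‖ ≤ C * ‖JP e₀ (dM E E' f (Q v₀)) P ^ N‖

/-- `H713.HasForms`, with bounds on the slices in `T`. -/
def HasFormsT (T : Tame E₀ X) (f : X → Y) (S : Set Y) (e₀ : E ≃L[ℂ] (E' × E₀)) (Δ : Set X → ℝ)
    (r : ℕ) (y : Y) : Prop :=
  ∃ (N : ℕ) (𝒜 : Set (Set X)) (κ₀ : Set X → ℕ) (Θ : X → ℂ)
      (Ξ : Fin r → X → ℂ), 0 < N ∧ 𝒜.Finite ∧ (∀ D ∈ 𝒜, IsPrimeDivisor E D) ∧
      RelFormT T f S e₀ N 𝒜 κ₀ Θ ∧ (∀ b, RelFormT T f S e₀ N 𝒜 κ₀ (Ξ b)) ∧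
      (∀ D, (κ₀ D : ℝ) ≤ N * Δ D) ∧ ∃ x, f x = y ∧ (∀ᶠ z in 𝓝 x, Θ z ≠ 0) ∧
      (∀ b, HolV E (fun z => Ξ b z / Θ z) x) ∧
      ∀ c : Fin r → ℂ, (∀ ξ, dM E E' f x ξ = 0 →
        ∑ b, c b * dif E (fun z => Ξ b z / Θ z) x ξ = 0) → ∀ b, c b = 0

end RelFormT

/-- Near every point of `Z`, the slices `Q` with values near this point, such that `P ∘ φ ∘ Q` is the
identity for the linear map `P` in the chart `φ`, are in `T K` for some `K`. -/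
def TameOK {n : ℕ} {E₀ Z : Type} [NormedAddCommGroup E₀] [NormedSpace ℂ E₀] [TopologicalSpace Z]
    [ChartedSpace (Cm n) Z] (T : Tame E₀ Z) : Prop :=
  ∀ (y z₀ : Z) (P : Cm n →L[ℂ] E₀), y ∈ (chartAt (Cm n) z₀).source → ∃ N ∈ 𝓝 y, ∃ K : ℝ, 0 < K ∧
    ∀ (Q : E₀ → Z) (v₀ : E₀) (r : ℝ), 0 < r → (∀ v ∈ ball v₀ r,
      ContMDiffAt 𝓘(ℂ, E₀) 𝓘(ℂ, Cm n) ω Q v ∧ Q v ∈ N ∧ P (chartAt (Cm n) z₀ (Q v)) = v) →
      T K Q v₀ r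

/-- **U3** (port of `H64/Gen/{Bd,Lift,Core,Main}` with `RelFormT T`; the slices of `bd_G` satisfy
`P (φ (Q v)) = v`). -/
def LiftTStmt : Prop :=
  ∀ (n p : ℕ) (X Y E₁ : Type) [TopologicalSpace X] [T2Space X] [ConnectedSpace X]
    [ChartedSpace (Cm n) X] [IsManifold 𝓘(ℂ, Cm n) ω X] [TopologicalSpace Y] [T2Space Y]
    [ChartedSpace (Cm p) Y] [IsManifold 𝓘(ℂ, Cm p) ω Y] [NormedAddCommGroup E₁] [NormedSpace ℂ E₁]
    [FiniteDimensional ℂ E₁] (T : Tame E₁ X) (f : X → Y) (S : Set Y) (e₀ : Cm n ≃L[ℂ] (Cm p × E₁))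
    (Δ : Set X → ℝ) (r j₂ : ℕ), TameOK (n := n) T → ContMDiff 𝓘(ℂ, Cm n) 𝓘(ℂ, Cm p) ω f →
    IsSmallSet (Cm p) S → (∀ x, f x ∉ S → Function.Surjective (dM (Cm n) (Cm p) f x)) →
    J.IsSNC (Cm n) Δ → (∀ y, y ∉ S → HasFormsT T f S e₀ Δ r y) →
    KodFGE n p Δ (id : X → X) f j₂ →
    KodGE (Cm n) (fun (D : Set X) z g => IsLocalEq (Cm n) D g z) Δ (j₂ + r)

section AlbR

variable (E E' : Type) [NormedAddCommGroup E] [NormedSpace ℂ E]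
  [NormedAddCommGroup E'] [NormedSpace ℂ E']
variable {X Y : Type} [TopologicalSpace X] [ChartedSpace E X]
  [TopologicalSpace Y] [ChartedSpace E' Y]
variable {V : Type} [NormedAddCommGroup V] [InnerProductSpace ℂ V] [FiniteDimensional ℂ V]

/-- At `v`, the minors `m_0, …, m_r` have `minor m_0 ≠ 0` and independent quotients. -/
def RankAt {d : ℕ} (r : ℕ) (h : (Fin d → ℂ) → V) (v : Fin d → ℂ)
    (m : Fin (r + 1) → Fin d → (V →L[ℂ] ℂ)) : Prop :=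
  minor (m 0) h v ≠ 0 ∧ Function.Surjective fun (ξ : Fin d → ℂ) (k : Fin r) =>
    fderiv ℂ (fun u => minor (m k.succ) h u / minor (m 0) h u) v ξ

/-- The Gauss map of `h` has rank exactly `r` near `v₀`, and `h` does not map the points near `v₀` to
a hyperplane. -/
structure IsNondegR {d : ℕ} (r : ℕ) (h : (Fin d → ℂ) → V) (v₀ : Fin d → ℂ) : Prop where
  rank : ∃ m, RankAt r h v₀ m
  max : ∀ᶠ v in 𝓝 v₀, ∀ m, ¬ RankAt (r + 1) h v m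
  full : ∀ l : V →L[ℂ] ℂ, (∀ᶠ v in 𝓝 v₀, l (h v) = l (h v₀)) → l = 0

/-- `H713.IsAlbaneseFamily` with Gauss maps of rank `r`, and bounds for the first derivatives of the
normalised maps on the slices in `T` (instead of the volumes of all polydiscs). -/
structure IsAlbR {n : ℕ} (d r : ℕ) (T : Tame (Fin d → ℂ) X) (f : X → Y) (S : Set Y)
    (Q : (Fin n → ℝ) → (Fin n → ℝ) → ℝ) {ι : Type} (U : ι → Set Y)
    (π : ι → Y → ((Fin n → ℝ) ≃L[ℝ] V)) (α : ι → X → V) : Prop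
    extends IsPeriodFamily E' S Q U π where
  coord : ∀ x, f x ∉ S → ∃ ζ : X → (Fin d → ℂ), IsFibreCoord E E' f ζ x
  lift : ∀ a x, f x ∈ U a → ∃ β : X → V, ContMDiffAt 𝓘(ℂ, E) 𝓘(ℂ, V) ω β x ∧
    ∀ᶠ z in 𝓝 x, IsCongr (π a (f z)) (α a z) (β z)
  nondeg : ∀ a, ∀ y ∈ U a, ∃ (q : (Fin d → ℂ) → X) (v₀ : Fin d → ℂ),
    ContMDiffAt 𝓘(ℂ, Fin d → ℂ) 𝓘(ℂ, E) ω q v₀ ∧ (∀ᶠ v in 𝓝 v₀, f (q v) = y) ∧
    ∀ h : (Fin d → ℂ) → V, ContDiffAt ℂ ω h v₀ →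
    (∀ᶠ v in 𝓝 v₀, IsCongr (π a y) (α a (q v)) (h v)) → IsNondegR r h v₀
  bound : ∀ r K : ℝ, 0 < r → 0 < K → ∃ A : ℝ, ∀ (a : ι) (q : (Fin d → ℂ) → X) (v₀ : Fin d → ℂ),
    IsPolydisc E f q v₀ r → T K q v₀ r → f (q v₀) ∈ U a → ∀ h : (Fin d → ℂ) → V,
    DifferentiableOn ℂ h (ball v₀ r) →
    (∀ v ∈ ball v₀ r, IsCongr (π a (f (q v₀))) (α a (q v)) (h v)) →
    ∀ G : V ≃L[ℂ] V, (∀ x x', (inner ℂ (G (π a (f (q v₀)) x)) (G (π a (f (q v₀)) x'))).im =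
      Q x x') → ∀ v ∈ ball v₀ (r / 2), ‖fderiv ℂ (fun u => G (h u)) v‖ ≤ A
  change : ∀ a b, ∀ y ∈ U a ∩ U b, ∃ (G : V ≃L[ℂ] V) (c : V),
    IsPeriodChange Q (π a y) (π b y) G ∧ ∀ z, f z = y →
      IsCongr (π b y) (G (α a z) + c) (α b z)

end AlbR

/-- **U1 + U2** (port of `H713/{GBr,GBr2,GPl,GTerm,GVal,GForm,GBound,GNV,GNC,…,GNC4}` with `r + 1`
minors and `d - r` linear functionals). -/
def HasRStmt : Prop :=
  ∀ (p d r n g : ℕ) (X Y : Type) [TopologicalSpace X] [ChartedSpace (Cm (p + d)) X]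
    [IsManifold 𝓘(ℂ, Cm (p + d)) ω X] [TopologicalSpace Y] [ChartedSpace (Cm p) Y]
    [IsManifold 𝓘(ℂ, Cm p) ω Y] (T : Tame (Cm d) X) (f : X → Y) (S : Set Y)
    (Q : (Fin n → ℝ) → (Fin n → ℝ) → ℝ) (ι : Type) (U : ι → Set Y)
    (π : ι → Y → ((Fin n → ℝ) ≃L[ℝ] EuclideanSpace ℂ (Fin g)))
    (α : ι → X → EuclideanSpace ℂ (Fin g)) (e₀ : Cm (p + d) ≃L[ℂ] (Cm p × Cm d))
    (Δ : Set X → ℝ), 0 < d → r ≤ d → ContMDiff 𝓘(ℂ, Cm (p + d)) 𝓘(ℂ, Cm p) ω f →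
    IsAlbR (Cm (p + d)) (Cm p) d r T f S Q U π α → (∀ D, 0 ≤ Δ D) → ∀ y ∉ S,
    HasFormsT T f S e₀ Δ r y

/-- The slices `q` with `|ξ|² ≤ K |dq ξ|²_w`. -/
def KTame {n d : ℕ} {X : Type} [TopologicalSpace X] [ChartedSpace (Cm n) X]
    (w : Chart n X → Cm n → Matrix (Fin n) (Fin n) ℂ) : Tame (Cm d) X := fun K q v₀ r =>
  ∀ v ∈ ball v₀ r, ∀ e : Chart n X, At e (q v) → ∀ ξ : Cm d,
    ‖ξ‖ ^ 2 ≤ K * (∑ i, ∑ j, w e (e (q v)) i j * fderiv ℂ (fun u => e (q u)) v ξ i *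
      conj (fderiv ℂ (fun u => e (q u)) v ξ j)).re

/-- **U3'**: a Hermitian metric gives an admissible notion of tame slices. -/
def TameOKStmt : Prop :=
  ∀ (n d : ℕ) (X : Type) [TopologicalSpace X] [ChartedSpace (Cm n) X] [IsManifold 𝓘(ℂ, Cm n) ω X]
    (w : Chart n X → Cm n → Matrix (Fin n) (Fin n) ℂ), IsHermitian w →
    TameOK (n := n) (KTame (d := d) w)

/-- `|ξ|² ≤ K |dq ξ|²_w` for a slice `q : ball(v₀, r) → E`. -/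
def TameIn {d : ℕ} {E Γ : Type} [TopologicalSpace E] [Group Γ] [MulAction Γ E]
    (S : TK.Sheets d E Γ) (w : Fin S.N → Cm d → Matrix (Fin d) (Fin d) ℂ) (K : ℝ) (q : Cm d → E)
    (v₀ : Cm d) (r : ℝ) : Prop :=
  ∀ v ∈ ball v₀ r, ∀ i, ∀ z ∈ ball (0 : Cm d) 3, ∀ (γ : Γ) (θ : Cm d → Cm d), AnalyticAt ℂ θ v →
    θ v = z → (∀ᶠ u in 𝓝 v, q u = γ • S.σ i (θ u)) → ∀ ξ : Cm d,
    ‖ξ‖ ^ 2 ≤ K * (∑ j, ∑ k, w i z j k * fderiv ℂ θ v ξ j * conj (fderiv ℂ θ v ξ k)).re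

/-- **U4a**: the first derivatives of `h` are bounded on tame slices, if `herm h h ≤ 1`
(`|dh|²_w det w ≥ K^(1-d) |d(h ∘ q)|²`; `PolyIn`: the integral over the slice is at most the integral
over `E / Γ`, as in `F2`; then `H713.poly_sup`). -/
def TameBoundStmt : Prop :=
  ∀ (d : ℕ) (r K : ℝ), 0 < d → 0 < r → 0 < K → ∃ A : ℝ, ∀ (E Γ : Type) [TopologicalSpace E]
    [T2Space E] [SimplyConnectedSpace E] [Group Γ] [MulAction Γ E] [ContinuousConstSMul Γ E]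
    (S : TK.Sheets d E Γ) (w : Fin S.N → Cm d → Matrix (Fin d) (Fin d) ℂ) (h : E → ℂ) (c : Γ → ℂ),
    TK.Kah S w → TK.Add S h c → (S.herm w h h).re ≤ 1 → ∀ (q : Cm d → E) (v₀ : Cm d),
    TK.PolyIn S q v₀ r → TameIn S w K q v₀ r →
    ∀ v ∈ ball v₀ (r / 2), ‖fderiv ℂ (fun u => h (q u)) v‖ ≤ A

/-- **U4b** (linear algebra, as in `F2`): `herm h h ≤ 1` for `h = m ∘ G ∘ F`, `‖m‖ ≤ 1`, `G` the
normalisation of the periods. -/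
def NormStmt : Prop :=
  ∀ (d : ℕ) (E Γ : Type) [TopologicalSpace E] [T2Space E] [SimplyConnectedSpace E] [Group Γ]
    [MulAction Γ E] [ContinuousConstSMul Γ E] (S : TK.Sheets d E Γ)
    (w : Fin S.N → Cm d → Matrix (Fin d) (Fin d) ℂ) (n g : ℕ) (M : H64.Mark Γ n)
    (B : Matrix (Fin n) (Fin n) ℝ) (F : E → Fin g → ℂ) (c : Γ → Fin g → ℂ), 0 < d → TK.Kah S w →
    n = 2 * g → TK.HasForm S w M B → TK.IsBas S F c →
    ∀ π : (Fin n → ℝ) ≃L[ℝ] EuclideanSpace ℂ (Fin g), (∀ x, π x = TK.perMap M c x) →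
    ∀ G : EuclideanSpace ℂ (Fin g) ≃L[ℂ] EuclideanSpace ℂ (Fin g), (∀ x x',
      (inner ℂ (G (π x)) (G (π x'))).im = ∑ k, ∑ l, B⁻¹ k l * x' k * x l) →
    ∀ m : EuclideanSpace ℂ (Fin g) →L[ℂ] ℂ, ‖m‖ ≤ 1 →
      (S.herm w (fun e => m (G (WithLp.toLp 2 (F e)))) (fun e => m (G (WithLp.toLp 2 (F e))))).re
        ≤ 1

/-- **U5** (assembly, as `AlbStmt`): a proper fibration over `Y ∖ S` with Kähler total space and
Gauss maps of rank exactly `r`. -/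
def AlbRStmt : Prop :=
  ∀ (p d r : ℕ) (Z Y : Type) [TopologicalSpace Z] [T2Space Z] [ChartedSpace (Cm (p + d)) Z]
    [IsManifold 𝓘(ℂ, Cm (p + d)) ω Z] [TopologicalSpace Y] [T2Space Y] [ChartedSpace (Cm p) Y]
    [IsManifold 𝓘(ℂ, Cm p) ω Y] (f : Z → Y) (S : Set Y)
    (w : Chart (p + d) Z → Cm (p + d) → Matrix (Fin (p + d)) (Fin (p + d)) ℂ), 0 < d →
    ContMDiff 𝓘(ℂ, Cm (p + d)) 𝓘(ℂ, Cm p) ω f →
    IsProperFibration (n := p + d) (p := p) f S → IsPreconnected Sᶜ → IsKahler w →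
    (∀ y ∉ S, TK.NDeg (p + d) p d r f y) → (∀ y ∉ S, ¬ TK.NDeg (p + d) p d (r + 1) f y) → Sᶜ.Nonempty →
    ∃ (g n : ℕ) (Q : (Fin n → ℝ) → (Fin n → ℝ) → ℝ) (ι : Type) (U : ι → Set Y)
      (π : ι → Y → ((Fin n → ℝ) ≃L[ℝ] EuclideanSpace ℂ (Fin g)))
      (α : ι → Z → EuclideanSpace ℂ (Fin g)),
      IsAlbR (Cm (p + d)) (Cm p) d r (KTame w) f S Q U π α

/-- The closed holomorphic 1-forms of `F` generate its cotangent spaces (that is, if `F` is compact: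
`F` is immersed in a complex torus). -/
def IsGen (d : ℕ) (F : Type) [TopologicalSpace F] [ChartedSpace (Cm d) F] : Prop :=
  ∀ (x : F) (v : Cm d), v ≠ 0 → ∃ η : F → (Cm d →L[ℂ] ℂ), (∀ x', ∃ ψ : F → ℂ,
    J.HolAt (Cm d) ψ x' ∧ ∀ᶠ z in 𝓝 x', η z = J.dif (Cm d) ψ z) ∧ η x v ≠ 0

/-- **U6** (Ueno): then `κ(F, K_F)` is at most the rank of the Gauss map, which is everywhere defined:
a section `σ` of `m K_F` divided by `(η_1 ∧ ⋯ ∧ η_d)^m` is constant on its compact fibres. -/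
def UenoStmt : Prop :=
  ∀ (n d r : ℕ) (X F : Type) [TopologicalSpace X] [ChartedSpace (Cm n) X]
    [IsManifold 𝓘(ℂ, Cm n) ω X] [TopologicalSpace F] [ChartedSpace (Cm d) F]
    [IsManifold 𝓘(ℂ, Cm d) ω F] [CompactSpace F] [ConnectedSpace F] (i : F → X)
    (Δ : Set X → ℝ), 0 < d → ContMDiff 𝓘(ℂ, Cm d) 𝓘(ℂ, Cm n) ω i → IsGen d F →
    ¬ TK.GaussRank d F (r + 1) → (∀ D, Δ D ≠ 0 → ∀ t, i t ∉ D) →
    TZ.S.kodR (Cm n) (Cm d) i Δ ≤ ((r : ℕ∞) : WithBot ℕ∞)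

/-- **T-U**, the goal: `T-KN` with Gauss maps of any rank. -/
def TUStmt : Prop :=
  ∀ (p d r : ℕ) (X Y X₁ Y₁ : Type) [TopologicalSpace X] [ChartedSpace (Cm (p + d)) X]
    [TopologicalSpace Y] [ChartedSpace (Cm p) Y] [TopologicalSpace X₁]
    [ChartedSpace (Cm (p + d)) X₁] [TopologicalSpace Y₁] [ChartedSpace (Cm p) Y₁]
    (f : X → Y) (Δ : Set X → ℝ) (f₁ : X₁ → Y₁) (Δ₁ : Set X₁ → ℝ), 0 < d →
    H511.Surf.IsFibration (Cm (p + d)) (Cm p) f Δ →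
    H511.Surf.IsFibration (Cm (p + d)) (Cm p) f₁ Δ₁ →
    TZ.S.IsStep (Cm (p + d)) (Cm p) f₁ Δ₁ f Δ →
    NoExc (Cm (p + d)) (Cm p) f₁ ∨ H64.Gen.ExcOne (Cm (p + d)) (Cm p) f₁ Δ₁ →
    (∃ w : Chart (p + d) X₁ → Cm (p + d) → Matrix (Fin (p + d)) (Fin (p + d)) ℂ, IsKahler w) →
    ∃ H : ℕ → Set Y, (∀ k, IsThinSet (Cm p) (H k)) ∧ ∀ y, (∀ k, y ∉ H k) →
      ∀ (F : Type) [TopologicalSpace F] [ChartedSpace (Cm d) F] (i : F → X),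
        H511.Surf.IsFibre (Cm (p + d)) (Cm d) f y i → Function.Injective i → TK.GaussRank d F r →
        TZ.S.kodR (Cm (p + d)) (Cm d) i Δ ≤ ((r : ℕ∞) : WithBot ℕ∞) →
        H511.Surf.Q1 (Cm (p + d)) (Cm p) (Cm d) f Δ i

end Vale.Agent.P281.H64.TU
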