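import Vale.Agent.P281.H64.TK.G2e
import Vale.Agent.P281.H64.TU.Spec
import Vale.Agent.P281.H969.K.K

/-!
# P281, project T-U (helper64), block U5: the Albanese family with Gauss maps of rank `r`
-/

open Set Filter Metric MeasureTheory Vale.Agent.P281 Vale.Agent.P281.H713 Vale.Agent.P272.K
open scoped Topology ContDiff Manifold ComplexConjugate NNReal

set_option linter.unusedSectionVars false

noncomputable section

namespace Vale.Agent.P281.H64.TK

open H603.K H864.K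

variable {p d : ℕ} {Z Y : Type} [TopologicalSpace Z] [T2Space Z] [ChartedSpace (Cm (p + d)) Z]
  [IsManifold 𝓘(ℂ, Cm (p + d)) ω Z] [TopologicalSpace Y] [T2Space Y] [ChartedSpace (Cm p) Y]
  [IsManifold 𝓘(ℂ, Cm p) ω Y] {f : Z → Y}
  {w : Chart (p + d) Z → Cm (p + d) → Matrix (Fin (p + d)) (Fin (p + d)) ℂ} {n g : ℕ}
  {B : Matrix (Fin n) (Fin n) ℝ} {J : (Fin d ⊕ Fin d → Fin n) → ℝ}

/-- the functional with the coefficients `s` -/
def fnl {g : ℕ} (s : Fin g → ℂ) : EuclideanSpace ℂ (Fin g) →L[ℂ] ℂ :=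
  LinearMap.toContinuousLinearMap
    (∑ j, s j • (LinearMap.proj j ∘ₗ (WithLp.linearEquiv 2 ℂ (Fin g → ℂ)).toLinearMap :
      EuclideanSpace ℂ (Fin g) →ₗ[ℂ] ℂ))

theorem fnl_apply {g : ℕ} (s : Fin g → ℂ) (v : Fin g → ℂ) :
    fnl s (WithLp.toLp 2 v) = ∑ j, s j * v j := by
  rw [fnl]
  simp only [LinearMap.coe_toContinuousLinearMap', LinearMap.sum_apply, LinearMap.smul_apply]
  rfl

theorem fnl_of {g : ℕ} (l : EuclideanSpace ℂ (Fin g) →L[ℂ] ℂ) :
    fnl (fun j => l (WithLp.toLp 2 (Pi.single j 1))) = l := by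
  ext v
  have h1 := fnl_apply (fun j => l (WithLp.toLp 2 (Pi.single j 1))) ((WithLp.equiv 2 _) v)
  have h2 := functional_eq l ((WithLp.equiv 2 _) v)
  have h3 : (WithLp.toLp 2 ((WithLp.equiv 2 _) v) : EuclideanSpace ℂ (Fin g)) = v := rfl
  rw [h3] at h1 h2
  rw [h1, h2]

theorem quad_eq {N : ℕ} (M : Matrix (Fin N) (Fin N) ℂ) (x : Cm N) :
    ∑ a, ∑ b, M a b * x a * conj (x b) = dotProduct x (M.mulVec fun b => conj (x b)) := by
  rw [dotProduct]
  refine Finset.sum_congr rfl fun a _ => ?_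
  rw [Matrix.mulVec, dotProduct, Finset.mul_sum]
  exact Finset.sum_congr rfl fun b _ => by ring

theorem quad_pull {N d : ℕ} (M : Matrix (Fin N) (Fin N) ℂ) (C : Matrix (Fin N) (Fin d) ℂ)
    (x : Cm d) : ∑ a, ∑ b, M a b * (∑ j, C a j * x j) * conj (∑ j, C b j * x j) =
      ∑ j, ∑ k, (C.transpose * M * C.map conj) j k * x j * conj (x k) := by
  have h1 := quad_eq M (C.mulVec x)
  have h2 := quad_eq (C.transpose * M * C.map conj) x
  have h3 : (fun b => conj (C.mulVec x b)) = (C.map conj).mulVec fun b => conj (x b) := by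
    funext b
    simp only [Matrix.mulVec, dotProduct, map_sum, map_mul, Matrix.map_apply]
  rw [h2, ← Matrix.mulVec_mulVec, ← Matrix.mulVec_mulVec, Matrix.dotProduct_mulVec,
    Matrix.vecMul_transpose, ← h3]
  exact h1

namespace DLoc

variable {L : DLoc f w B J g}

theorem nondegR (I : Inputs) (hd : 0 < d) (hn : n = 2 * g)
    (hf : ContMDiff 𝓘(ℂ, Cm (p + d)) 𝓘(ℂ, Cm p) ω f) (hw : IsKahler w)
    (D : (Fin n → ℝ) ≃L[ℝ] EuclideanSpace ℂ (Fin g)) {y : Y} (hy : y ∈ L.U) {r : ℕ}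
    (hN : NDeg (p + d) p d r f y) (hN' : ¬ NDeg (p + d) p d (r + 1) f y) :
    ∃ (q : (Fin d → ℂ) → Z) (v₀ : Fin d → ℂ),
      ContMDiffAt 𝓘(ℂ, Fin d → ℂ) 𝓘(ℂ, Cm (p + d)) ω q v₀ ∧ (∀ᶠ v in 𝓝 v₀, f (q v) = y) ∧
      ∀ h : (Fin d → ℂ) → EuclideanSpace ℂ (Fin g), ContDiffAt ℂ ω h v₀ →
      (∀ᶠ v in 𝓝 v₀, IsCongr (L.π D y) (L.α (q v)) (h v)) → TU.IsNondegR r h v₀ := by
  obtain ⟨i, z, hz, hG⟩ := L.gauss I hd hf hw hy hN
  have hz3 : z ∈ ball (0 : Cm d) 3 := Sh.mem3 hz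
  have ht := L.hT' hy.2
  have hK := kah_fib L.kfam ht
  have hC2 := (I.c2 d L.E L.Γ (L.sh hy) _ hd hK).2
  obtain ⟨hG, hGa, hG0, hGs⟩ := hG
  -- the functions in terms of the basis
  have hbas := L.bas _ hy.2
  have hlin : ∀ k, ∃ (s : Fin d → Fin g → ℂ) (b : Cm d), ∀ e a,
      hG k e a = ∑ j, s a j * L.F (L.χ y) e j + b a := by
    intro k
    choose b hb using hGa k
    choose s hs using fun a => hbas.span _ _ (hb a)
    obtain ⟨e₀⟩ : Nonempty L.E := inferInstance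
    refine ⟨s, fun a => hG k e₀ a - ∑ j, s a j * L.F (L.χ y) e₀ j, fun e a => ?_⟩
    have h1 := Add.sum hbas.add (s a)
    have h2 : Add (L.sh hy) (fun e => hG k e a) (fun γ => ∑ j, s a j * L.c (L.χ y) γ j) := by
      have h3 : b a = fun γ => ∑ j, s a j * L.c (L.χ y) γ j := funext fun γ => hs a γ
      rw [← h3]
      exact hb a
    have h4 := h2.diff_const hC2 h1 e e₀
    linear_combination h4
  choose s b hsb using hlin
  refine ⟨fun v => L.q (L.χ y) (L.𝓕.σ i (L.χ y) v), z,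
    contMDiffAt_slice (L.model.hol i _ ht z hz3),
    Eventually.of_forall fun v => by rw [L.model.fib _ ht, L.left_inv hy], ?_⟩
  intro h hh hc
  have hconst := slice_const I.f2 hd hn D hy i hz3 hh.continuousAt hc
  -- the derivatives
  have hev : ∀ᶠ v in 𝓝 z, fderiv ℂ h v = fderiv ℂ (fun u => (WithLp.toLp 2
      (L.F (L.χ y) (L.𝓕.σ i (L.χ y) u)) : EuclideanSpace ℂ (Fin g))) v := by
    filter_upwards [eventually_eventually_nhds.2 hconst] with v hv
    have h1 : h =ᶠ[𝓝 v] fun u => (WithLp.toLp 2 (L.F (L.χ y) (L.𝓕.σ i (L.χ y) u)) :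
        EuclideanSpace ℂ (Fin g)) + (h z - WithLp.toLp 2 (L.F (L.χ y) (L.𝓕.σ i (L.χ y) z))) := by
      filter_upwards [hv] with u hu
      rw [← hu]
      abel
    rw [h1.fderiv_eq, fderiv_add_const]
  have hmin' : ∀ (s : Fin d → Fin g → ℂ) (h' : L.E → Cm d) (b : Cm d),
      (∀ e a, h' e a = ∑ j, s a j * L.F (L.χ y) e j + b a) →
      ∀ᶠ v in 𝓝 z, minor (fun a => fnl (s a)) h v = (L.sh hy).minor h' i v := by
    intro s h' b hs
    filter_upwards [hev, isOpen_ball.mem_nhds hz3] with v h1 h2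
    rw [minor_congr (fun a => fnl (s a)) h1]
    exact (minor_functional hy h2 s hs).symm
  refine ⟨⟨fun k a => fnl (s k a), ?_, ?_⟩, ?_, fun l hl => ?_⟩
  · rw [(hmin' (s 0) (hG 0) (b 0) (hsb 0)).self_of_nhds]
    exact hG0
  · intro v
    obtain ⟨ξ, hξ⟩ := hGs v
    refine ⟨ξ, ?_⟩
    rw [← hξ]
    funext k
    have h1 : (fun u => minor (fun a => fnl (s k.succ a)) h u / minor (fun a => fnl (s 0 a)) h u)
        =ᶠ[𝓝 z] fun u => (L.sh hy).minor (hG k.succ) i u / (L.sh hy).minor (hG 0) i u := by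
      filter_upwards [hmin' (s 0) (hG 0) (b 0) (hsb 0),
        hmin' (s k.succ) (hG k.succ) (b k.succ) (hsb k.succ)] with u a1 a2
      rw [a1, a2]
    simp only
    rw [h1.fderiv_eq]
  · -- the rank is at most `r`
    filter_upwards [eventually_eventually_nhds.2 hev, isOpen_ball.mem_nhds hz3] with v hv hv3 m hm
    apply hN'
    obtain ⟨hm0, hms⟩ := hm
    set s' : Fin (r + 1 + 1) → Fin d → Fin g → ℂ :=
      fun k a j => m k a (WithLp.toLp 2 (Pi.single j 1)) with hs'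
    set h' : Fin (r + 1 + 1) → L.E → Cm d := fun k e a => ∑ j, s' k a j * L.F (L.χ y) e j with hh'
    have hmm : ∀ k, (fun a => fnl (s' k a)) = m k := fun k => funext fun a => fnl_of (m k a)
    have hmin'' : ∀ k, ∀ᶠ u in 𝓝 v, minor (m k) h u = (L.sh hy).minor (h' k) i u := by
      intro k
      filter_upwards [hv, isOpen_ball.mem_nhds hv3] with u h1 h2
      rw [← hmm k, minor_congr (fun a => fnl (s' k a)) h1]
      exact (minor_functional hy h2 (s' k) (b := 0) (fun e a => by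
        rw [hh']; simp)).symm
    refine ⟨L.E, L.Γ, inferInstance, inferInstance, inferInstance, inferInstance, inferInstance,
      inferInstance, L.𝓕, L.q, L.χ, L.χ y, ht, L.model, L.left_inv hy, i, v, hv3, h', ?_, ?_, ?_⟩
    · exact fun k a => ⟨_, Add.sum hbas.add (s' k a)⟩
    · have h1 := (hmin'' 0).self_of_nhds
      rw [h1] at hm0
      exact hm0
    · intro u
      obtain ⟨ξ, hξ⟩ := hms u
      refine ⟨ξ, ?_⟩
      rw [← hξ]
      funext k
      have h1 : (fun u => minor (m k.succ) h u / minor (m 0) h u)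
          =ᶠ[𝓝 v] fun u => (L.sh hy).minor (h' k.succ) i u / (L.sh hy).minor (h' 0) i u := by
        filter_upwards [hmin'' 0, hmin'' k.succ] with u a1 a2
        rw [a1, a2]
      simp only
      rw [h1.fderiv_eq]
  · -- no hyperplane
    set s' : Fin g → ℂ := fun j => l (WithLp.toLp 2 (Pi.single j 1)) with hs'
    have hadd := Add.sum hbas.add s'
    have hev' : ∀ᶠ e in 𝓝 (L.𝓕.σ i (L.χ y) z), ∑ j, s' j * L.F (L.χ y) e j =
        ∑ j, s' j * L.F (L.χ y) (L.𝓕.σ i (L.χ y) z) j := by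
      rw [← L.𝓕.map_nhds' i _ ht z hz3, eventually_map]
      filter_upwards [hconst, hl] with u h1 h2
      have h4 : (WithLp.toLp 2 (L.F (L.χ y) (L.𝓕.σ i (L.χ y) u)) : EuclideanSpace ℂ (Fin g)) =
          h u - h z + WithLp.toLp 2 (L.F (L.χ y) (L.𝓕.σ i (L.χ y) z)) := by
        rw [sub_eq_sub_iff_sub_eq_sub] at h1
        rw [h1]
        abel
      have h6 := congrArg l h4
      rw [map_add, map_sub, h2, sub_self, zero_add, functional_eq, functional_eq] at h6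
      exact h6
    have hconst' : ∀ e, ∑ j, s' j * L.F (L.χ y) e j =
        ∑ j, s' j * L.F (L.χ y) (L.𝓕.σ i (L.χ y) z) j := fun e =>
      const_of_eventually hadd hev' e
    have hper := hadd.per_zero (fun e e' => by rw [hconst' e, hconst' e'])
    have hs0 := hbas.indep s' hper
    ext v
    have h8 := functional_eq l ((WithLp.equiv 2 _) v)
    have h9 : (WithLp.toLp 2 ((WithLp.equiv 2 _) v) : EuclideanSpace ℂ (Fin g)) = v := rfl
    rw [h9] at h8
    rw [h8]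
    have h10 : ∀ j, l (WithLp.toLp 2 (Pi.single j 1)) = 0 := fun j => congrFun hs0 j
    rw [zero_apply]
    exact Finset.sum_eq_zero fun j _ => by rw [h10, zero_mul]

/-- the derivative of the normalised lift along a slice -/
theorem lift_deriv (hF2 : F2Stmt) (hd : 0 < d) (hn : n = 2 * g)
    (D : (Fin n → ℝ) ≃L[ℝ] EuclideanSpace ℂ (Fin g)) {q : Cm d → Z} {v₀ : Cm d} {r : ℝ}
    (hq : IsPolydisc (Cm (p + d)) f q v₀ r) (hy : f (q v₀) ∈ L.U)
    {q' : Cm d → L.E} (hqq : ∀ v ∈ ball v₀ r, L.q (L.χ (f (q v₀))) (q' v) = q v)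
    (hpoly : PolyIn (L.sh hy) q' v₀ r)
    {h : Cm d → EuclideanSpace ℂ (Fin g)} (hh : DifferentiableOn ℂ h (ball v₀ r))
    (hc : ∀ v ∈ ball v₀ r, IsCongr (L.π D (f (q v₀))) (L.α (q v)) (h v))
    (G : EuclideanSpace ℂ (Fin g) ≃L[ℂ] EuclideanSpace ℂ (Fin g)) {v : Cm d}
    (hv : v ∈ ball v₀ r) : (fun u => G (h u)) =ᶠ[𝓝 v] fun u =>
      G (WithLp.toLp 2 (L.F (L.χ (f (q v₀))) (q' u)) : EuclideanSpace ℂ (Fin g)) +
        G (h v - WithLp.toLp 2 (L.F (L.χ (f (q v₀))) (q' v))) := by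
  set y := f (q v₀) with hydef
  obtain ⟨γ, i, z, hz, he⟩ := (L.sh hy).cover (q' v)
  have hz3 := Sh.mem3 hz
  obtain ⟨θ, k1, k2, k3⟩ := hpoly.hol v hv i z hz3 γ he.symm
  -- continuity of `F ∘ q'`
  have hcF : ContinuousAt (fun v => (WithLp.toLp 2 (L.F (L.χ y) (q' v)) :
      EuclideanSpace ℂ (Fin g))) v := by
    refine (PiLp.continuous_toLp 2 (fun _ : Fin g => ℂ)).continuousAt.comp ?_
    rw [continuousAt_pi]
    intro j
    have h2 : ContinuousAt (fun u => L.F (L.χ y) (γ • L.𝓕.σ i (L.χ y) (θ u)) j) v := by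
      have h3 := (((L.bas _ hy.2).add j).analyticAt γ i hz3).continuousAt
      exact ContinuousAt.comp (g := fun z => L.F (L.χ y) (γ • L.𝓕.σ i (L.χ y) z) j)
        (f := θ) (by rw [k2]; exact h3) k1.continuousAt
    refine h2.congr ?_
    filter_upwards [k3] with u hu
    rw [hu]
    rfl
  -- the difference is locally constant
  have hcont : ContinuousAt (fun u => h u - (WithLp.toLp 2 (L.F (L.χ y) (q' u)) :
      EuclideanSpace ℂ (Fin g))) v :=
    (hh.differentiableAt (isOpen_ball.mem_nhds hv)).continuousAt.sub hcF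
  have hlat : ∀ᶠ u in 𝓝 v, ∃ m : Fin n → ℤ, h u - (WithLp.toLp 2 (L.F (L.χ y) (q' u)) :
      EuclideanSpace ℂ (Fin g)) = L.π D y fun i => (m i : ℝ) := by
    filter_upwards [isOpen_ball.mem_nhds hv] with u hu
    obtain ⟨m₁, hm₁⟩ := hc u hu
    have hfu : f (q u) = y := hq.2.2 u hu
    have h5 := congr_aux (L := L) hF2 hd hn D (x := q u) (e := q' u) (by rw [hfu]; exact hy)
      (by rw [hfu]; exact hqq u hu)
    obtain ⟨m₂, hm₂⟩ := h5
    rw [hfu] at hm₂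
    refine ⟨m₁ - m₂, ?_⟩
    rw [hm₁, hm₂]
    have h3 : (fun i => ((m₁ - m₂) i : ℝ)) = (fun i => (m₁ i : ℝ)) - fun i => (m₂ i : ℝ) := by
      funext i
      simp
    rw [h3, map_sub]
    abel
  have hlc := lattice_const (L.π D y) hcont hlat
  filter_upwards [hlc] with u hu
  rw [← hu, ← map_add]
  congr 1
  abel

/-- tame slices of `Z` are tame slices of `E` -/
theorem tameIn {y : Y} (hy : y ∈ L.U) {q : Cm d → Z} {v₀ : Cm d} {r K : ℝ}
    {q' : Cm d → L.E} (hqq : ∀ v ∈ ball v₀ r, L.q (L.χ y) (q' v) = q v)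
    (hT : TU.KTame w K q v₀ r) : TU.TameIn (L.sh hy) (fibW L.W (L.χ y)) K q' v₀ r := by
  have ht := L.hT' hy.2
  intro v hv i z hz γ θ hθ hθz hev ξ
  have hqv : q v = L.q (L.χ y) (L.𝓕.σ i (L.χ y) z) := by
    rw [← hqq v hv, hev.self_of_nhds, hθz]
    exact ((L.model.eq _ ht _ _).2 ⟨γ, rfl⟩).symm
  obtain ⟨e, he⟩ : ∃ e : Chart (p + d) Z, At e (q v) :=
    ⟨chartAt (Cm (p + d)) (q v), chart_mem_atlas _ _, mem_chart_source _ _⟩
  have he' : At e (L.q (L.χ y) (L.𝓕.σ i (L.χ y) z)) := by rwa [← hqv]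
  have h1 := hT v hv e he ξ
  have hW := H969.K.fibW_eq L.model L.pull ht hz he'
  -- the chain rule
  have hevq : (fun u => e (q u)) =ᶠ[𝓝 v] fun u => e (L.q (L.χ y) (L.𝓕.σ i (L.χ y) (θ u))) := by
    filter_upwards [hev, isOpen_ball.mem_nhds hv] with u a b
    rw [← hqq u b, a]
    congr 1
    exact ((L.model.eq _ ht _ _).2 ⟨γ, rfl⟩).symm
  have han : AnalyticAt ℂ (fun u => e (L.q (L.χ y) (L.𝓕.σ i (L.χ y) u))) z :=
    H969.K.analyticAt_chart he' (contMDiffAt_slice (L.model.hol i _ ht z hz))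
  have hD : fderiv ℂ (fun u => e (q u)) v ξ =
      fderiv ℂ (fun u => e (L.q (L.χ y) (L.𝓕.σ i (L.χ y) u))) z (fderiv ℂ θ v ξ) := by
    rw [hevq.fderiv_eq]
    have h2 := fderiv_comp (g := fun u => e (L.q (L.χ y) (L.𝓕.σ i (L.χ y) u))) v (f := θ)
      (by rw [hθz]; exact han.differentiableAt) hθ.differentiableAt
    have h3 : ((fun u => e (L.q (L.χ y) (L.𝓕.σ i (L.χ y) u))) ∘ θ) =
        fun u => e (L.q (L.χ y) (L.𝓕.σ i (L.χ y) (θ u))) := rfl
    rw [h3, hθz] at h2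
    rw [h2]
    rfl
  have hD' : ∀ a, fderiv ℂ (fun u => e (q u)) v ξ a =
      ∑ j, H969.K.jacF L.𝓕 L.q e i (L.χ y) z a j * fderiv ℂ θ v ξ j := by
    intro a
    rw [hD]
    have h2 : fderiv ℂ θ v ξ = ∑ j, (fderiv ℂ θ v ξ j) • (Pi.single j (1 : ℂ) : Cm d) := by
      funext l
      simp [Finset.sum_apply, Pi.single_apply]
    conv_lhs => rw [h2]
    rw [map_sum, Finset.sum_apply]
    refine Finset.sum_congr rfl fun j _ => ?_
    rw [map_smul, Pi.smul_apply, smul_eq_mul, mul_comm]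
    rfl
  refine h1.trans (le_of_eq ?_)
  congr 2
  rw [hW, ← hqv]
  simp only [hD']
  exact quad_pull _ _ _

/-- the bound for the first derivatives -/
theorem boundR (hNo : TU.NormStmt) (hF2 : F2Stmt) (hd : 0 < d) (hn : n = 2 * g) {r K : ℝ}
    (hr : 0 < r) {A : ℝ}
    (hA : ∀ (E Γ : Type) [TopologicalSpace E]
    [T2Space E] [SimplyConnectedSpace E] [Group Γ] [MulAction Γ E] [ContinuousConstSMul Γ E]
    (S : Sheets d E Γ) (w : Fin S.N → Cm d → Matrix (Fin d) (Fin d) ℂ) (h : E → ℂ) (c : Γ → ℂ),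
    Kah S w → Add S h c → (S.herm w h h).re ≤ 1 → ∀ (q : Cm d → E) (v₀ : Cm d),
    PolyIn S q v₀ r → TU.TameIn S w K q v₀ r →
    ∀ v ∈ ball v₀ (r / 2), ‖fderiv ℂ (fun u => h (q u)) v‖ ≤ A)
    (D : (Fin n → ℝ) ≃L[ℝ] EuclideanSpace ℂ (Fin g)) {q : Cm d → Z} {v₀ : Cm d}
    (hq : IsPolydisc (Cm (p + d)) f q v₀ r) (hT : TU.KTame w K q v₀ r) (hy : f (q v₀) ∈ L.U)
    {h : Cm d → EuclideanSpace ℂ (Fin g)} (hh : DifferentiableOn ℂ h (ball v₀ r))
    (hc : ∀ v ∈ ball v₀ r, IsCongr (L.π D (f (q v₀))) (L.α (q v)) (h v))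
    (G : EuclideanSpace ℂ (Fin g) ≃L[ℂ] EuclideanSpace ℂ (Fin g))
    (hG : ∀ x x', (inner ℂ (G (L.π D (f (q v₀)) x)) (G (L.π D (f (q v₀)) x'))).im = Qf B x x')
    {v : Cm d} (hv : v ∈ ball v₀ (r / 2)) : ‖fderiv ℂ (fun u => G (h u)) v‖ ≤ max A 0 := by
  have hvr : v ∈ ball v₀ r := ball_subset_ball (by linarith) hv
  obtain ⟨q', hqq, hpoly⟩ := lift_poly (L := L) hy hq rfl hr
  have hev := lift_deriv (L := L) hF2 hd hn D hq hy hqq hpoly hh hc G hvr
  have hGd : DifferentiableAt ℂ (fun u => G (h u)) v :=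
    G.differentiableAt.comp v (hh.differentiableAt (isOpen_ball.mem_nhds hvr))
  refine ContinuousLinearMap.opNorm_le_bound _ (le_max_right _ _) fun ξ => ?_
  obtain ⟨m, hm1, hm2⟩ := exists_dual_vector'' ℂ (fderiv ℂ (fun u => G (h u)) v ξ)
  have hK := kah_fib L.kfam (L.hT' hy.2)
  set c' : L.Γ → ℂ := fun γ => m (G (WithLp.toLp 2 (L.c (L.χ (f (q v₀))) γ))) with hc'
  have hAdd : Add (L.sh hy) (fun e => m (G (WithLp.toLp 2 (L.F (L.χ (f (q v₀))) e)))) c' := by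
    set l : EuclideanSpace ℂ (Fin g) →L[ℂ] ℂ := m.comp (G : EuclideanSpace ℂ (Fin g) →L[ℂ]
      EuclideanSpace ℂ (Fin g)) with hl
    have h1 := Add.sum (L.bas _ hy.2).add (fun j => l (WithLp.toLp 2 (Pi.single j 1)))
    have h2 : (fun e => m (G (WithLp.toLp 2 (L.F (L.χ (f (q v₀))) e)))) =
        fun e => ∑ j, l (WithLp.toLp 2 (Pi.single j 1)) * L.F (L.χ (f (q v₀))) e j := by
      funext e
      exact functional_eq l _
    have h3 : c' = fun γ => ∑ j, l (WithLp.toLp 2 (Pi.single j 1)) *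
        L.c (L.χ (f (q v₀))) γ j := by
      funext γ
      exact functional_eq l _
    rw [h2, h3]
    exact h1
  have h4 := hA L.E L.Γ (L.sh hy) _ _ c' hK hAdd
    (hNo d L.E L.Γ (L.sh hy) _ n g L.M B _ _ hd hK hn (L.top _ (L.hT' hy.2)).form (L.bas _ hy.2)
      (L.π D (f (q v₀))) (π_spec hF2 hd hn D hy) G hG m hm1) q' v₀ hpoly
    (tameIn hy hqq hT) v hv
  have h5 : fderiv ℂ (fun u => m (G (WithLp.toLp 2 (L.F (L.χ (f (q v₀))) (q' u))))) v =
      m.comp (fderiv ℂ (fun u => G (h u)) v) := by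
    have h6 : (fun u => m (G (h u))) =ᶠ[𝓝 v] fun u =>
        m (G (WithLp.toLp 2 (L.F (L.χ (f (q v₀))) (q' u)))) +
          m (G (h v - WithLp.toLp 2 (L.F (L.χ (f (q v₀))) (q' v)))) := by
      filter_upwards [hev] with u hu
      rw [hu, map_add]
    have h7 : fderiv ℂ (fun u => m (G (h u))) v =
        m.comp (fderiv ℂ (fun u => G (h u)) v) :=
      (m.hasFDerivAt.comp v hGd.hasFDerivAt).fderiv
    rw [← h7, h6.fderiv_eq, fderiv_add_const]
  rw [h5] at h4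
  have h6 : ‖fderiv ℂ (fun u => G (h u)) v ξ‖ = ‖m (fderiv ℂ (fun u => G (h u)) v ξ)‖ := by
    rw [hm2]
    simp
  rw [h6]
  calc ‖m (fderiv ℂ (fun u => G (h u)) v ξ)‖ = ‖(m.comp (fderiv ℂ (fun u => G (h u)) v)) ξ‖ := rfl
    _ ≤ ‖m.comp (fderiv ℂ (fun u => G (h u)) v)‖ * ‖ξ‖ := ContinuousLinearMap.le_opNorm _ _
    _ ≤ max A 0 * ‖ξ‖ := by
      gcongr
      exact h4.trans (le_max_left _ _)

end DLoc

end Vale.Agent.P281.H64.TK

namespace Vale.Agent.P281.H64.TU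

open TK (Inputs DLoc)

/-- **U5** -/
theorem albR (I : TK.Inputs) (hTB : TameBoundStmt) (hNo : NormStmt) : AlbRStmt := by
  intro p d r Z Y _ _ _ _ _ _ _ _ f S w hd hf hP hconn hw hN hN' hne
  obtain ⟨y₁, hy₁⟩ := hne
  obtain ⟨n, g, hn, B, J, hJ, hL⟩ := TK.dglob I hd hf hw hP hconn hy₁
  choose L h1 h2 h3 using fun a : {y // y ∉ S} => hL a.1 a.2
  have h4 : ∀ a, a.1 ∈ (L a).U := fun a => ⟨h1 a, h2 a⟩
  choose hB D hD using fun a => (L a).F2_at I.f2 hd hn (h2 a)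
  refine ⟨g, n, H64.Qf B, {y // y ∉ S}, fun a => (L a).U, fun a => (L a).π (D a),
    fun a => (L a).α, ?_⟩
  constructor
  · constructor
    · intro y
      constructor
      · intro hy
        exact ⟨⟨y, hy⟩, h4 ⟨y, hy⟩⟩
      · rintro ⟨a, ha⟩
        have h5 := h3 a _ ha.2
        rwa [(L a).left_inv ha] at h5
    · exact fun a => (L a).isOpen_U
    · exact fun a x y hy => TK.DLoc.hol_π I.f2 hd hn (D a) x hy
    · exact fun a y hy => TK.DLoc.polarized I.f2 hd hn (D a) hy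
  · intro x hx
    exact TK.DLoc.coord (L := L ⟨f x, hx⟩) hf (h4 ⟨f x, hx⟩)
  · exact fun a x hx => TK.DLoc.lift I.f2 hd hn hf (D a) hx
  · intro a y hy
    have hyS : y ∉ S := by
      have h5 := h3 a _ hy.2
      rwa [(L a).left_inv hy] at h5
    exact TK.DLoc.nondegR I hd hn hf hw (D a) hy (hN y hyS) (hN' y hyS)
  · intro r K hr hK
    obtain ⟨A, hA⟩ := hTB d r K hd hr hK
    refine ⟨max A 0, fun a q v₀ hq hT hy h hh hc G hG v hv => ?_⟩
    exact TK.DLoc.boundR (L := L a) hNo I.f2 hd hn hr hA (D a) hq hT hy hh hc G hG hv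
  · intro a b y hy
    exact TK.DLoc.change I hd hn hf hw (L a) (L b) (D a) (D b) hy.1 hy.2

end Vale.Agent.P281.H64.TU
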