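import Vale.Agent.P281.H64.TU.Stat
import Vale.Agent.P281.H303.UF.Fin

/-!
# P281: the theorem on Kähler fibrations and Gauss maps, in the letters of the statement
-/

open Set
open Vale.Agent.P272.K (Chart IsKahler)
open Vale.Agent.P281 Vale.Agent.P281.H713.TZ.S
open Vale.Agent.P281.H511.Surf (IsFibration IsFibre)
open Vale.Agent.P281.H64.Thin (IsThinSet)
open scoped Manifold ContDiff Topology

noncomputable section

namespace Vale.Agent.P281.H64.Stat

theorem gaussRank_iff {d : ℕ} {F : Type} [TopologicalSpace F] [ChartedSpace (Cm d) F] {r : ℕ} :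
    GaussRank d F r ↔ TK.GaussRank d F r := Iff.rfl

theorem isGen_iff {d : ℕ} {F : Type} [TopologicalSpace F] [ChartedSpace (Cm d) F] :
    IsGen d F ↔ TU.IsGen d F := Iff.rfl

theorem cond_iff {n d : ℕ} {X F : Type} [TopologicalSpace X] [ChartedSpace (Cm n) X]
    [TopologicalSpace F] [ChartedSpace (Cm d) F] {i : F → X} {Δ : Set X → ℝ} :
    Cond n d i Δ ↔ H303.UF.Cond n d i Δ := Iff.rfl

theorem stat {p d : ℕ} (hd : 0 < d) {X Y : Type} [tX : TopologicalSpace X]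
    [cX : ChartedSpace (Cm (p + d)) X] [tY : TopologicalSpace Y] [cY : ChartedSpace (Cm p) Y]
    (f : X → Y) (Δ : Set X → ℝ) (hf : IsFibration (Cm (p + d)) (Cm p) f Δ) :
    (HasModel (p + d) p f Δ →
      ForFibres (p + d) p d f Δ (kap (Cm (p + d)) (Cm p) ⟨X, Y, tX, tY, cX, cY, f, Δ⟩)) ∧
    ((∃ w : Chart (p + d) X → Cm (p + d) → Matrix (Fin (p + d)) (Fin (p + d)) ℂ, IsKahler w) →
      ForFibres (p + d) p d f Δ (kodF (p + d) p Δ (id : X → X) f) ∧
      KapLe (Cm (p + d)) (Cm p) f Δ (kodF (p + d) p Δ (id : X → X) f)) := by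
  constructor
  · rintro ⟨X₁, Y₁, _, _, _, _, f₁, Δ₁, h₁, hs, he, hw⟩
    exact H303.UF.tuQ f Δ f₁ Δ₁ hd hf h₁ hs he hw
  · intro hw
    exact H303.UF.tuK f Δ hd hf hw

end Vale.Agent.P281.H64.Stat
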